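import Vale.Agent.P166.SelfAvg.Main

/-!
The pressure of an orthogonally invariant Ising spin glass is self-averaging at every temperature
and asymptotically depends only on the inverse temperature and the limiting spectral law.
-/

open MeasureTheory Filter
open scoped Topology

namespace Vale.Agent.Results.P166.SelfAveraging

open Vale.Agent.P166

theorem result :
    (∀ N : ℕ, ∃ ν : Measure (ON N), IsProbabilityMeasure ν ∧
      ∀ g : ON N, ν.map (fun U => g * U) = ν) ∧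
    (∀ (N : ℕ) (β L : ℝ) (l : Fin N → ℝ) (ν : Measure (ON N)), 0 ≤ β → 0 < L → 0 < N →
      (∀ i, |l i| ≤ L) → IsProbabilityMeasure ν → (∀ g : ON N, ν.map (fun U => g * U) = ν) →
      ∫ U, (pressure β l U - ∫ V, pressure β l V ∂ν) ^ 2 ∂ν
        ≤ 256 * β ^ 2 * L ^ 2 * (1 + Real.log N) / N) ∧
    ∀ β : ℝ, 0 ≤ β → ∀ (μ : Measure ℝ), IsProbabilityMeasure μ → ∀ a b : ℝ,
      (∀ η > (0 : ℝ), 0 < μ (Set.Ioi (b - η))) →
      ∃ m : ℕ → ℝ, ∀ (l : (N : ℕ) → Fin N → ℝ),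
        (∀ f : ℝ → ℝ, Continuous f → (∃ C, ∀ z, |f z| ≤ C) →
          Tendsto (fun N : ℕ => (∑ i, f (l N i)) / (N : ℝ)) atTop (𝓝 (∫ z, f z ∂μ))) →
        (∀ η > (0 : ℝ), ∀ᶠ N in atTop, ∀ i, a - η ≤ l N i ∧ l N i ≤ b + η) →
        ∀ (ν : (N : ℕ) → Measure (ON N)), (∀ N, IsProbabilityMeasure (ν N)) →
        (∀ N, ∀ g : ON N, (ν N).map (fun U => g * U) = ν N) →
        Tendsto (fun N => ∫ U, (pressure β (l N) U - m N) ^ 2 ∂ν N) atTop (𝓝 0) := by
  refine ⟨fun N => ?_, ?_, fun β hβ μ hμ a b hedge => selfAveraging hβ μ a b hedge⟩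
  · refine ⟨Measure.haarMeasure ⊤, ⟨?_⟩, fun g => map_mul_left_eq_self _ g⟩
    simpa using Measure.haarMeasure_self (G := ON N) (K₀ := ⊤)
  · intro N β L l ν hβ hL hN hl hprob hν
    exact variance_le hβ l hL hl hN ν hν

end Vale.Agent.Results.P166.SelfAveraging
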